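import Crest.Agent.X261.Ans.HkD
import Crest.Agent.X261.Ans.Man2

/-!
# Row 261, package FH (helper14), file `A`

Harnack inequality along the compact connected fibres of a proper holomorphic submersion, locally
uniformly in the fibre (`fh_open`, `fh_loc`, `fh_unif`).
-/

set_option autoImplicit false
set_option linter.dupNamespace false
set_option linter.unusedSectionVars false

open Set Filter Topology Metric

noncomputable section

namespace Crest.Agent.X261.Fh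

open Crest.Agent.X261.Psh Crest.Agent.X261.Ans Crest.Agent.X261.Ans.Hk

/-! ### propagation along a filter of sets -/

section PrF

variable {X ι κ : Type*}

/-- `Prp (Z w)` with constants which are uniform for `w` along the filter `l` -/
def PrF (l : Filter κ) (Z : κ → Set X) (ψ : ι → X → EReal) (A : ι → ℝ) (O O' : Set X) : Prop :=
  ∃ θ C : ℝ, 0 < θ ∧ θ ≤ 1 ∧ 0 ≤ C ∧ ∀ᶠ w in l, ∀ (i : ι) (a b : ℝ), a ≤ b →
    (∀ y ∈ Z w, ψ i y ≤ b) → (∀ y ∈ Z w, y ∈ O → ψ i y ≤ a) →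
    ∀ y ∈ Z w, y ∈ O' → ψ i y ≤ ((b - θ * (b - a) + C * A i : ℝ) : EReal)

variable {l : Filter κ} {Z : κ → Set X} {ψ : ι → X → EReal} {A : ι → ℝ} {O O' O'' : Set X}

theorem PrF.of_subset (h : O' ⊆ O) : PrF l Z ψ A O O' :=
  ⟨1, 0, one_pos, le_rfl, le_rfl, Eventually.of_forall fun w i a b _ _ h2 y hy hy' => by
    simpa using h2 y hy (h hy')⟩

theorem PrF.trans (h : PrF l Z ψ A O O') (h' : PrF l Z ψ A O' O'') : PrF l Z ψ A O O'' := by
  obtain ⟨θ, C, h1, h2, h3, h4⟩ := h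
  obtain ⟨θ', C', h1', h2', h3', h4'⟩ := h'
  refine ⟨θ' * θ, θ' * C + C', by positivity, by nlinarith, by positivity, ?_⟩
  filter_upwards [h4, h4'] with w h4 h4' i a b hab hb ha y hy hy'
  have h5 := h4' i (min b (b - θ * (b - a) + C * A i)) b (min_le_left _ _) hb (fun y hy hy' => by
    rw [EReal.coe_strictMono.monotone.map_min]
    exact le_min (hb y hy) (h4 i a b hab hb ha y hy hy')) y hy hy'
  refine h5.trans (EReal.coe_le_coe_iff.2 ?_)
  have h6 := mul_le_mul_of_nonneg_left (min_le_right b (b - θ * (b - a) + C * A i)) h1'.le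
  linarith

theorem PrF.union (hA : ∀ i, 0 ≤ A i) (h : PrF l Z ψ A O O') (h' : PrF l Z ψ A O O'') :
    PrF l Z ψ A O (O' ∪ O'') := by
  obtain ⟨θ, C, h1, h2, h3, h4⟩ := h
  obtain ⟨θ', C', h1', h2', h3', h4'⟩ := h'
  refine ⟨min θ θ', max C C', lt_min h1 h1', (min_le_left _ _).trans h2,
    h3.trans (le_max_left _ _), ?_⟩
  filter_upwards [h4, h4'] with w h4 h4' i a b hab hb ha y hy hy'
  have hba : 0 ≤ b - a := by linarith
  rcases hy' with hy' | hy'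
  · refine (h4 i a b hab hb ha y hy hy').trans (EReal.coe_le_coe_iff.2 ?_)
    linarith [mul_le_mul_of_nonneg_right (min_le_left θ θ') hba,
      mul_le_mul_of_nonneg_right (le_max_left C C') (hA i)]
  · refine (h4' i a b hab hb ha y hy hy').trans (EReal.coe_le_coe_iff.2 ?_)
    linarith [mul_le_mul_of_nonneg_right (min_le_right θ θ') hba,
      mul_le_mul_of_nonneg_right (le_max_right C C') (hA i)]

variable [TopologicalSpace X]

/-- chains in a connected set, for an abstract transitive relation -/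
theorem conn_rel {R : Set X → Set X → Prop} (h0 : ∀ {P P' : Set X}, P' ⊆ P → R P P')
    (ht : ∀ {P P' P'' : Set X}, R P P' → R P' P'' → R P P'') {Z₀ : Set X} (hc : IsPreconnected Z₀)
    (hM : ∀ z ∈ Z₀, ∃ V ∈ 𝓝 z, ∀ O', IsOpen O' → (O' ∩ V ∩ Z₀).Nonempty → R O' V)
    (hO : IsOpen O) (hne : (O ∩ Z₀).Nonempty) : ∀ z ∈ Z₀, ∃ N ∈ 𝓝 z, R O N := by
  intro z hz
  by_contra hcon
  obtain ⟨x, hx, ⟨N, hN, h1⟩, V, hV, h2, h3⟩ := hc {z | ∃ N ∈ 𝓝 z, R O N}
    {z | ∃ V ∈ 𝓝 z, (∀ O', IsOpen O' → (O' ∩ V ∩ Z₀).Nonempty → R O' V) ∧ ¬ R O V}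
    (isOpen_iff_mem_nhds.2 fun x ⟨N, hN, h⟩ =>
      mem_of_superset (eventually_mem_nhds_iff.2 hN) fun y hy => ⟨N, hy, h⟩)
    (isOpen_iff_mem_nhds.2 fun x ⟨N, hN, h⟩ =>
      mem_of_superset (eventually_mem_nhds_iff.2 hN) fun y hy => ⟨N, hy, h⟩)
    (fun x hx => by
      obtain ⟨V, hV, h⟩ := hM x hx
      by_cases h' : R O V
      · exact Or.inl ⟨V, hV, h'⟩
      · exact Or.inr ⟨V, hV, h, h'⟩)
    (by
      obtain ⟨x, hx⟩ := hne
      exact ⟨x, hx.2, O, hO.mem_nhds hx.1, h0 Subset.rfl⟩)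
    (by
      obtain ⟨V, hV, h⟩ := hM z hz
      exact ⟨z, hz, V, hV, h, fun h' => hcon ⟨V, hV, h'⟩⟩)
  exact h3 (ht (ht h1 (h0 interior_subset))
    (h2 _ isOpen_interior ⟨x, ⟨mem_interior_iff_mem_nhds.2 hN, mem_of_mem_nhds hV⟩, hx⟩))

/-- a property stable under finite unions holds on a neighbourhood of a compact set -/
theorem compact_nhds {p : Set X → Prop} (h0 : p ∅) (hu : ∀ {P P' : Set X}, p P → p P' → p (P ∪ P'))
    {K : Set X} (hK : IsCompact K) (h : ∀ z ∈ K, ∃ N ∈ 𝓝 z, p N) : ∃ G ∈ 𝓝ˢ K, p G :=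
  hK.induction_on (p := fun S => ∃ G ∈ 𝓝ˢ S, p G) ⟨∅, by simp, h0⟩
    (fun _ _ hst ⟨G, hG, h1⟩ => ⟨G, nhdsSet_mono hst hG, h1⟩)
    (fun _ _ ⟨G, hG, h1⟩ ⟨G', hG', h2⟩ => ⟨G ∪ G', union_mem_nhdsSet hG hG', hu h1 h2⟩)
    fun z hz => by
      obtain ⟨N, hN, h1⟩ := h z hz
      exact ⟨interior N, mem_nhdsWithin_of_mem_nhds (interior_mem_nhds.2 hN), N,
        subset_interior_iff_mem_nhdsSet.1 Subset.rfl, h1⟩

/-- the tube lemma for a map which is proper over a neighbourhood of `w₀` -/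
theorem ev_fibre {Y : Type*} [TopologicalSpace Y] [T2Space Y] {T : Set X} {π : X → Y}
    (hπ : ContinuousOn π T) {w₀ : Y} {N : Set Y} (hN : N ∈ 𝓝 w₀) (hK : IsCompact (T ∩ π ⁻¹' N))
    {G : Set X} (hG : G ∈ 𝓝ˢ (T ∩ π ⁻¹' {w₀})) : ∀ᶠ w in 𝓝 w₀, T ∩ π ⁻¹' {w} ⊆ G := by
  have h1 : IsCompact (π '' ((T ∩ π ⁻¹' N) \ interior G)) :=
    (hK.diff isOpen_interior).image_of_continuousOn (hπ.mono fun y hy => hy.1.1)
  have h2 : w₀ ∉ π '' ((T ∩ π ⁻¹' N) \ interior G) := by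
    rintro ⟨y, hy, hy'⟩
    exact hy.2 (subset_interior_iff_mem_nhdsSet.2 hG ⟨hy.1.1, hy'⟩)
  filter_upwards [h1.isClosed.isOpen_compl.mem_nhds h2, hN] with w h3 h4 y hy
  by_contra h5
  have h6 : π y = w := hy.2
  exact h3 ⟨y, ⟨⟨hy.1, by rw [mem_preimage, h6]; exact h4⟩, fun h => h5 (interior_subset h)⟩, h6⟩

theorem isCompact_fibre {Y : Type*} [TopologicalSpace Y] [T2Space Y] {T : Set X} {π : X → Y}
    (hπ : ContinuousOn π T) {w₀ : Y} {N : Set Y} (hN : w₀ ∈ N) (hK : IsCompact (T ∩ π ⁻¹' N)) :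
    IsCompact (T ∩ π ⁻¹' {w₀}) := by
  obtain ⟨t, ht, h1⟩ := (continuousOn_iff_isClosed.1 (hπ.mono (inter_subset_left :
    T ∩ π ⁻¹' N ⊆ T))) {w₀} isClosed_singleton
  have : T ∩ π ⁻¹' {w₀} = T ∩ π ⁻¹' N ∩ t := by
    rw [inter_comm _ t, ← h1]
    ext y
    refine ⟨fun hy => ⟨hy.2, hy.1, ?_⟩, fun hy => ⟨hy.2.1, hy.1⟩⟩
    have h2 : π y = w₀ := hy.2
    rw [mem_preimage, h2]; exact hN
  rw [this]
  exact hK.inter_right ht

end PrF

variable {E F : Type} [NormedAddCommGroup E] [NormedSpace ℂ E] [FiniteDimensional ℂ E]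
  [NormedAddCommGroup F] [NormedSpace ℂ F] [FiniteDimensional ℂ F]

/-- holomorphic retractions onto the fibres of a submersion -/
theorem exists_ret {g : E → F} {x : E} (hg : AnalyticAt ℂ g x)
    (hs : Function.Surjective (fderiv ℂ g x)) :
    ∃ s : F × E → E, AnalyticAt ℂ s (g x, x) ∧ (∀ᶠ p in 𝓝 (g x, x), g (s p) = p.1) ∧
      ∀ᶠ y in 𝓝 x, s (g y, y) = y := by
  obtain ⟨L, hL⟩ := (fderiv ℂ g x).exists_rightInverse_of_surjective
    (LinearMap.range_eq_top.2 hs)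
  set S : F × E →L[ℂ] E := ContinuousLinearMap.snd ℂ F E + L.comp (ContinuousLinearMap.fst ℂ F E)
    with hS
  have hS' : ∀ p : F × E, S p = p.2 + L p.1 := fun p => rfl
  have h0 : S (0, x) = x := by simp [hS']
  have h2 : AnalyticAt ℂ (fun p : F × E => (g (S p), p.2)) (0, x) :=
    (hg.comp_of_eq (S.analyticAt _) h0).prod analyticAt_snd
  have h3 : HasFDerivAt (fun p : F × E => (g (S p), p.2))
      (((fderiv ℂ g x).comp S).prod (ContinuousLinearMap.snd ℂ F E)) (0, x) := by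
    have h4 : HasFDerivAt g (fderiv ℂ g x) (S (0, x)) := h0.symm ▸ hg.differentiableAt.hasFDerivAt
    exact (h4.comp (0, x) S.hasFDerivAt).prodMk hasFDerivAt_snd
  have hL' : ∀ t, fderiv ℂ g x (L t) = t := fun t => congrArg (fun T : F →L[ℂ] F => T t) hL
  obtain ⟨σ, hσ, h5, h6⟩ := Man.exists_inv' h2 (by
    rw [h3.fderiv]
    refine ⟨(injective_iff_map_eq_zero _).2 fun p hp => ?_, fun q =>
      ⟨(q.1 - fderiv ℂ g x q.2, q.2), ?_⟩⟩
    · have h7 : p.2 = 0 := congrArg Prod.snd hp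
      have h8 : fderiv ℂ g x (S p) = 0 := congrArg Prod.fst hp
      rw [hS', h7, zero_add, hL'] at h8
      exact Prod.ext h8 h7
    · refine Prod.ext ?_ rfl
      change fderiv ℂ g x (S _) = _
      rw [hS', map_add, hL']; simp)
  simp only [h0] at hσ h6
  refine ⟨fun q => S (σ q), (S.analyticAt _).comp hσ, h6.mono fun q hq => congrArg Prod.fst hq, ?_⟩
  have h7 : Tendsto (fun y : E => ((0 : F), y)) (𝓝 x) (𝓝 (0, x)) :=
    (continuous_const.prodMk continuous_id).tendsto x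
  filter_upwards [h7.eventually h5] with y hy
  have h8 : S (0, y) = y := by simp [hS']
  simp only [h8] at hy
  rw [hy, h8]

variable {M : Type} [TopologicalSpace M] {ι : Type*} {A : HA E M} {T : Set M} {π : M → F}
  {ψ : ι → M → EReal} {a : ι → ℝ} {z : M} {j : A.ι}

/-- the local model at a point of a fibre -/
theorem exists_loc (hT : T ∈ 𝓝 z) (hs : A.Subm (HA.self F) π z) (hψ : QL A T ψ a z j) :
    ∃ (δ c Λ : ℝ) (s : F → E → M), 0 < δ ∧ 0 ≤ c ∧ 1 ≤ Λ ∧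
      (∀ y ∈ ball (A.e j z) δ, ContinuousAt (fun p : F × E => s p.1 p.2) (π z, y)) ∧
      ∀ w ∈ ball (π z) δ,
        (∀ y ∈ ball (A.e j z) (4 * δ), s w y ∈ T ∧ s w y ∈ (A.e j).source ∧ π (s w y) = w) ∧
        (∀ x ∈ (A.e j).source, A.e j x ∈ ball (A.e j z) (4 * δ) → π x = w → s w (A.e j x) = x) ∧
        (∀ y ∈ ball (A.e j z) (4 * δ), ∀ y' ∈ ball (A.e j z) (4 * δ),
          dist (A.e j (s w y)) (A.e j (s w y')) ≤ Λ * dist y y') ∧
        ∀ y ∈ ball (A.e j z) δ, ∀ ρ : ℝ, 0 < ρ → ρ ≤ 2 * δ → ∀ (i : ι) (α β : ℝ), α ≤ β →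
          (∀ x ∈ T ∩ π ⁻¹' {w}, ψ i x ≤ β) → (∀ y' ∈ closedBall y ρ, ψ i (s w y') ≤ α) →
          ∀ x ∈ (A.e j).source, A.e j x ∈ ball (A.e j z) δ → π x = w → ψ i x ≤
            ((β - Real.log (3 / 2) / Real.log (3 * δ / ρ) * (β - α) + 2 * c * a i : ℝ) : EReal) := by
  obtain ⟨hz, W, hW, hzW, c, hc, hu⟩ := hψ
  have e1 : (A.e j).symm (A.e j z) = z := (A.e j).left_inv hz
  obtain ⟨s, h1, h2, h3⟩ := exists_ret (g := fun y => π ((A.e j).symm y))
    (hs.1.2 j () hz (mem_univ _)) ((HA.subm_self_iff hs.1 hz).1 hs)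
  simp only [e1] at h1 h2
  have h4 : s (π z, A.e j z) = A.e j z := by simpa only [e1] using h3.self_of_nhds
  have h5 : Tendsto s (𝓝 (π z, A.e j z)) (𝓝 (A.e j z)) := by
    have := h1.continuousAt.tendsto
    rwa [h4] at this
  obtain ⟨K, t, ht, hK⟩ := (h1.contDiffAt (n := 1)).exists_lipschitzOnWith
  have h6 : ∀ᶠ p : F × E in 𝓝 (π z, A.e j z), s (π ((A.e j).symm p.2), p.2) = p.2 :=
    (continuousAt_snd (p := (π z, A.e j z))).tendsto.eventually h3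
  obtain ⟨R, hR, h7⟩ := Metric.eventually_nhds_iff_ball.1 (h1.eventually_analyticAt.and
    (h2.and (h6.and ((h5.eventually (((HA.ev_chart hz).1 hT).and ((HA.ev_target hz).and
      (hW.eventually_mem hzW)))).and ht))))
  have hb : ∀ w ∈ ball (π z) (R / 4), ∀ y ∈ ball (A.e j z) (4 * (R / 4)),
      (w, y) ∈ ball (π z, A.e j z) R := fun w hw y hy => by
    rw [← ball_prod_same]
    exact ⟨ball_subset_ball (by linarith) hw, ball_subset_ball (by linarith) hy⟩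
  have hfix : ∀ w ∈ ball (π z) (R / 4), ∀ x ∈ (A.e j).source,
      A.e j x ∈ ball (A.e j z) (4 * (R / 4)) → π x = w →
      (A.e j).symm (s (w, A.e j x)) = x := fun w hw x hx hx' hxw => by
    have h8 := (h7 _ (hb w hw _ hx')).2.2.1
    simp only [(A.e j).left_inv hx, hxw] at h8
    rw [h8, (A.e j).left_inv hx]
  refine ⟨R / 4, c, max 1 K, fun w y => (A.e j).symm (s (w, y)), by positivity, hc,
    le_max_left _ _, fun y hy => ?_, fun w hw => ⟨fun y hy => ?_, hfix w hw,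
      fun y hy y' hy' => ?_, fun y hy ρ hρ hρ' i α β hαβ hβ hα x hx hx' hxw => ?_⟩⟩
  · have h8 := h7 _ (hb _ (mem_ball_self (by positivity)) y (ball_subset_ball (by linarith) hy))
    exact ((A.e j).continuousAt_symm h8.2.2.2.1.2.1).comp_of_eq h8.1.continuousAt rfl
  · have h8 := h7 _ (hb w hw y hy)
    exact ⟨h8.2.2.2.1.1, (A.e j).map_target h8.2.2.2.1.2.1, h8.2.1⟩
  · have h8 := h7 _ (hb w hw y hy)
    have h9 := h7 _ (hb w hw y' hy')
    rw [(A.e j).right_inv h8.2.2.2.1.2.1, (A.e j).right_inv h9.2.2.2.1.2.1]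
    refine (hK.dist_le_mul _ h8.2.2.2.2 _ h9.2.2.2.2).trans ?_
    rw [dist_prod_same_left]
    exact mul_le_mul_of_nonneg_right (le_max_right _ _) dist_nonneg
  · obtain ⟨u, hu1, hu2⟩ := hu i
    have h8 : IsPsh (ball (A.e j z) (4 * (R / 4))) fun y => u (s (w, y)) :=
      Hol.comp_hol hW hu1 (fun y hy => (((h7 _ (hb w hw y hy)).1.comp_of_eq
        (analyticAt_const.prod analyticAt_id) rfl).differentiableAt).differentiableWithinAt)
        fun y hy => (h7 _ (hb w hw y hy)).2.2.2.1.2.2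
    have h9 : ∀ y ∈ ball (A.e j z) (4 * (R / 4)),
        ψ i ((A.e j).symm (s (w, y))) ≤ u (s (w, y)) + ((c * a i : ℝ) : EReal) ∧
        u (s (w, y)) ≤ ψ i ((A.e j).symm (s (w, y))) + ((c * a i : ℝ) : EReal) := fun y hy => by
      have h10 := (h7 _ (hb w hw y hy)).2.2.2.1
      have := hu2 _ h10.1 ((A.e j).map_target h10.2.1)
        (by rw [(A.e j).right_inv h10.2.1]; exact h10.2.2)
      rwa [(A.e j).right_inv h10.2.1] at this
    have hy1 : dist y (A.e j z) < R / 4 := hy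
    have hx1 : dist (A.e j x) (A.e j z) < R / 4 := hx'
    have hD : closedBall y (3 * (R / 4)) ⊆ ball (A.e j z) (4 * (R / 4)) :=
      closedBall_subset_ball' (by linarith)
    have h10 := three h8 hρ hρ' hD (a := α + c * a i) (b := β + c * a i) (by linarith)
      (fun y' hy' => (h9 y' (hD hy')).2.trans (add_le_coe (hβ _
        ⟨(h7 _ (hb w hw y' (hD hy'))).2.2.2.1.1, (h7 _ (hb w hw y' (hD hy'))).2.1⟩) le_rfl))
      (fun y' hy' => (h9 y' (hD (closedBall_subset_closedBall (by linarith) hy'))).2.trans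
        (add_le_coe (hα y' hy') le_rfl)) (x := A.e j x) (by
          rw [mem_closedBall]; linarith [dist_triangle_right (A.e j x) y (A.e j z)])
    have hx4 : A.e j x ∈ ball (A.e j z) (4 * (R / 4)) := ball_subset_ball (by linarith) hx'
    have h11 := (h9 _ hx4).1
    rw [hfix w hw x hx hx4 hxw] at h11
    refine h11.trans ((add_le_coe h10 le_rfl).trans (le_of_eq ?_))
    congr 1; ring

theorem theta_pos {δ ρ : ℝ} (hρ : 0 < ρ) (h : ρ ≤ 2 * δ) :
    0 < Real.log (3 * δ / ρ) ∧ 0 < Real.log (3 / 2) / Real.log (3 * δ / ρ) ∧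
      Real.log (3 / 2) / Real.log (3 * δ / ρ) ≤ 1 := by
  have h32 : 0 < Real.log (3 / 2) := Real.log_pos (by norm_num)
  have hle : Real.log (3 / 2) ≤ Real.log (3 * δ / ρ) :=
    Real.log_le_log (by norm_num) (by rw [div_le_div_iff₀ (by norm_num) hρ]; linarith)
  exact ⟨h32.trans_le hle, div_pos h32 (h32.trans_le hle), (div_le_one (h32.trans_le hle)).2 hle⟩

theorem loc_prf (hT : T ∈ 𝓝 z) (hs : A.Subm (HA.self F) π z) (hψ : QL A T ψ a z j) :
    ∃ V ∈ 𝓝 z, ∀ O', IsOpen O' → (O' ∩ V ∩ (T ∩ π ⁻¹' {π z})).Nonempty →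
      PrF (𝓝 (π z)) (fun w => T ∩ π ⁻¹' {w}) ψ a O' V := by
  obtain ⟨δ, c, Λ, s, hδ, hc, -, h1, h2⟩ := exists_loc hT hs hψ
  refine ⟨(A.e j).source ∩ A.e j ⁻¹' ball (A.e j z) δ,
    ((A.e j).isOpen_inter_preimage isOpen_ball).mem_nhds ⟨hψ.1, mem_ball_self hδ⟩,
    fun O' hO' ⟨x, ⟨hxO, hxV⟩, hx⟩ => ?_⟩
  have h3 := (h2 _ (mem_ball_self hδ)).2.1 x hxV.1 (ball_subset_ball (by linarith) hxV.2) hx.2
  obtain ⟨r, hr, h4⟩ := nhds_basis_closedBall.mem_iff.1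
    ((h1 _ hxV.2).eventually (hO'.mem_nhds (by beta_reduce; rw [h3]; exact hxO)))
  have hρ : 0 < min r δ := lt_min hr hδ
  have hρ' : min r δ ≤ 2 * δ := by linarith [min_le_right r δ]
  refine ⟨_, 2 * c, (theta_pos hρ hρ').2.1, (theta_pos hρ hρ').2.2, by positivity, ?_⟩
  filter_upwards [ball_mem_nhds (π z) hρ] with w hw i α β hαβ hβ hα y hy hy'
  have hwδ : w ∈ ball (π z) δ := ball_subset_ball (min_le_right _ _) hw
  have hx1 : dist (A.e j x) (A.e j z) < δ := hxV.2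
  refine (h2 w hwδ).2.2.2 _ hxV.2 _ hρ hρ' i α β hαβ hβ (fun y' h5 => ?_) y hy'.1 hy'.2 hy.2
  have h6 := (h2 w hwδ).1 y' (closedBall_subset_ball' (by linarith [min_le_right r δ]) h5)
  refine hα _ ⟨h6.1, h6.2.2⟩ (h4 (a := (w, y')) ?_)
  rw [← closedBall_prod_same]
  exact ⟨ball_subset_closedBall (ball_subset_ball (min_le_left _ _) hw),
    closedBall_subset_closedBall (min_le_left _ _) h5⟩

theorem ql_bdd (hψ : QL A T ψ a z j) :
    ∃ N ∈ 𝓝 z, ∀ i, ∃ b : ℝ, ∀ y ∈ T, y ∈ N → ψ i y ≤ b := by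
  have : ProperSpace E := FiniteDimensional.proper ℂ E
  obtain ⟨hz, W, hW, hzW, c, hc, hu⟩ := hψ
  obtain ⟨r, hr, h1⟩ := ex_cball hW hzW
  refine ⟨(A.e j).source ∩ A.e j ⁻¹' ball (A.e j z) r,
    ((A.e j).isOpen_inter_preimage isOpen_ball).mem_nhds ⟨hz, mem_ball_self hr⟩, fun i => ?_⟩
  obtain ⟨u, hu1, hu2⟩ := hu i
  obtain ⟨b, hb⟩ := hu1.bdd (isCompact_closedBall _ r) h1
  exact ⟨b + c * a i, fun y hy hy' => (hu2 y hy hy'.1 (h1 (ball_subset_closedBall hy'.2))).1.trans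
    (add_le_coe (hb _ (ball_subset_closedBall hy'.2)) le_rfl)⟩

/-- the hypotheses on the map `π : T → F` near the fibre over `w₀` -/
structure Tb (A : HA E M) (T : Set M) (π : M → F) (w₀ : F) : Prop where
  op : IsOpen T
  cont : ContinuousOn π T
  subm : ∀ z ∈ T, π z = w₀ → A.Subm (HA.self F) π z
  prop : ∃ N ∈ 𝓝 w₀, IsCompact (T ∩ π ⁻¹' N)
  conn : IsPreconnected (T ∩ π ⁻¹' {w₀})

section main

variable {w₀ : F} (hT : Tb A T π w₀) (ha : ∀ i, 0 ≤ a i)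
  (hψ : ∀ z ∈ T, π z = w₀ → ∃ j, QL A T ψ a z j)

include hT ha hψ

/-- propagation to the whole fibre, and boundedness -/
theorem fh_prf {O : Set M} (hO : IsOpen O) (hne : (O ∩ (T ∩ π ⁻¹' {w₀})).Nonempty) :
    ∃ θ C : ℝ, 0 < θ ∧ 0 ≤ C ∧ ∀ᶠ w in 𝓝 w₀, ∀ i : ι,
      (∃ b : ℝ, ∀ y ∈ T ∩ π ⁻¹' {w}, ψ i y ≤ b) ∧ ∀ α β : ℝ, α ≤ β →
      (∀ y ∈ T ∩ π ⁻¹' {w}, ψ i y ≤ β) → (∀ y ∈ T ∩ π ⁻¹' {w}, y ∈ O → ψ i y ≤ α) →
      ∀ y ∈ T ∩ π ⁻¹' {w}, ψ i y ≤ ((β - θ * (β - α) + C * a i : ℝ) : EReal) := by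
  obtain ⟨N, hN, hK⟩ := hT.prop
  have hK0 := isCompact_fibre hT.cont (mem_of_mem_nhds hN) hK
  obtain ⟨G, hG, θ, C, h1, -, h2, h3⟩ := compact_nhds
    (p := fun P => PrF (𝓝 w₀) (fun w => T ∩ π ⁻¹' {w}) ψ a O P) (PrF.of_subset (empty_subset _))
    (PrF.union ha) hK0 (conn_rel PrF.of_subset PrF.trans hT.conn (fun z hz => by
      obtain ⟨j, hj⟩ := hψ z hz.1 hz.2
      have h1 := loc_prf (hT.op.mem_nhds hz.1) (hT.subm z hz.1 hz.2) hj
      have h2 : π z = w₀ := hz.2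
      rwa [h2] at h1) hO hne)
  obtain ⟨G', hG', h4⟩ := compact_nhds
    (p := fun P => ∀ i, ∃ b : ℝ, ∀ y ∈ T, y ∈ P → ψ i y ≤ b) (fun _ => ⟨0, by simp⟩)
    (fun h h' i => by
      obtain ⟨b, hb⟩ := h i
      obtain ⟨b', hb'⟩ := h' i
      exact ⟨max b b', fun y hy hy' => hy'.elim
        (fun h => (hb y hy h).trans (EReal.coe_le_coe_iff.2 (le_max_left _ _)))
        fun h => (hb' y hy h).trans (EReal.coe_le_coe_iff.2 (le_max_right _ _))⟩) hK0
    fun z hz => by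
      obtain ⟨j, hj⟩ := hψ z hz.1 hz.2
      exact ql_bdd hj
  refine ⟨θ, C, h1, h2, ?_⟩
  filter_upwards [h3, ev_fibre hT.cont hN hK hG, ev_fibre hT.cont hN hK hG'] with w h5 h6 h7 i
  exact ⟨(h4 i).imp fun b hb y hy => hb y hy.1 (h7 hy),
    fun α β hαβ hβ hα y hy => h5 i α β hαβ hβ hα y hy (h6 hy)⟩

end main

/-- elimination of the upper bound -/
theorem le_of_prop {X : Type*} {Z : Set X} {f : X → EReal} {α θ C : ℝ} (hθ : 0 < θ) (hC : 0 ≤ C)
    (hb : ∃ b : ℝ, ∀ y ∈ Z, f y ≤ b)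
    (h : ∀ β : ℝ, α ≤ β → (∀ y ∈ Z, f y ≤ β) → ∀ y ∈ Z, f y ≤ ((β - θ * (β - α) + C : ℝ) : EReal)) :
    ∀ y ∈ Z, f y ≤ ((α + C / θ : ℝ) : EReal) := by
  obtain ⟨b, hb⟩ := hb
  have h1 : ⨆ y ∈ Z, f y ≤ b := iSup₂_le hb
  intro y hy
  refine (le_iSup₂ (f := fun y (_ : y ∈ Z) => f y) y hy).trans ?_
  by_contra hcon
  push Not at hcon
  have h2 : (⨆ y ∈ Z, f y) ≠ ⊤ := (h1.trans_lt (EReal.coe_lt_top b)).ne
  have h3 : (⨆ y ∈ Z, f y) ≠ ⊥ := ((EReal.bot_lt_coe _).trans hcon).ne'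
  obtain ⟨β, hβ⟩ : ∃ β : ℝ, (⨆ y ∈ Z, f y) = β := ⟨_, (EReal.coe_toReal h2 h3).symm⟩
  rw [hβ, EReal.coe_lt_coe_iff] at hcon
  have h4 : 0 ≤ C / θ := div_nonneg hC hθ.le
  have h5 := iSup₂_le (h β (by linarith) fun y hy =>
    hβ ▸ le_iSup₂ (f := fun y (_ : y ∈ Z) => f y) y hy)
  rw [hβ, EReal.coe_le_coe_iff] at h5
  have h6 : β - α ≤ C / θ := by rw [le_div_iff₀ hθ]; linarith
  linarith

section main

variable {w₀ : F} (hT : Tb A T π w₀) (ha : ∀ i, 0 ≤ a i)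
  (hψ : ∀ z ∈ T, π z = w₀ → ∃ j, QL A T ψ a z j)

include hT ha hψ

/-- **fibre Harnack inequality**, fixed open set -/
theorem fh_open {O : Set M} (hO : IsOpen O) (hne : (O ∩ (T ∩ π ⁻¹' {w₀})).Nonempty) :
    ∃ C : ℝ, 0 ≤ C ∧ ∀ᶠ w in 𝓝 w₀, ∀ (i : ι) (α : ℝ),
      (∀ y ∈ T, π y = w → y ∈ O → ψ i y ≤ α) →
      ∀ y ∈ T, π y = w → ψ i y ≤ ((α + C * a i : ℝ) : EReal) := by
  obtain ⟨θ, C, h1, h2, h3⟩ := fh_prf hT ha hψ hO hne
  refine ⟨C / θ, by positivity, h3.mono fun w hw i α hα y hy hy' => ?_⟩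
  have := le_of_prop h1 (mul_nonneg h2 (ha i)) (hw i).1 (fun β hαβ hβ =>
    (hw i).2 α β hαβ hβ fun y hy => hα y hy.1 hy.2) y ⟨hy, hy'⟩
  rwa [mul_div_right_comm] at this

/-- **fibre Harnack inequality**, small balls of a chart around points near `z` -/
theorem fh_loc (hz : z ∈ T) (hz' : π z = w₀) (hj : z ∈ (A.e j).source) {N : Set M}
    (hN : N ∈ 𝓝 z) :
    ∃ C : ℝ, 0 ≤ C ∧ ∀ᶠ x in 𝓝 z, ∀ (i : ι) (α t : ℝ), 0 < t → t ≤ 1 →
      (∀ y ∈ T, π y = π x → y ∈ N → y ∈ (A.e j).source → dist (A.e j y) (A.e j x) < t →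
        ψ i y ≤ α) →
      ∀ y ∈ T, π y = π x → ψ i y ≤ ((α + C * a i * (1 - Real.log t) : ℝ) : EReal) := by
  obtain ⟨j', hj'⟩ := hψ z hz hz'
  obtain ⟨δ, c, Λ, s, hδ, hc, hΛ, -, h2⟩ :=
    exists_loc (hT.op.mem_nhds hz) (hT.subm z hz hz') (hj'.chart hj)
  obtain ⟨ε, hε, h0⟩ := Metric.eventually_nhds_iff_ball.1 ((HA.ev_chart hj).1 hN)
  have hV := (A.e j).isOpen_inter_preimage (isOpen_ball (x := A.e j z) (ε := δ))
  obtain ⟨θ, C, h3, h4, h5⟩ := fh_prf hT ha hψ hV ⟨z, ⟨hj, mem_ball_self hδ⟩, hz, hz'⟩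
  have hπ : Tendsto π (𝓝 z) (𝓝 w₀) := hz' ▸ (hT.subm z hz hz').1.1.tendsto
  set κ : ℝ := min δ (min (ε / 2) 1 / (2 * Λ)) with hκ
  have hκ0 : 0 < κ := by positivity
  have hκ1 : κ ≤ δ := min_le_left _ _
  have hκ2 : κ * (2 * Λ) ≤ min (ε / 2) 1 := (le_div_iff₀ (by positivity)).1 (min_le_right _ _)
  have h32 : 0 < Real.log (3 / 2) := Real.log_pos (by norm_num)
  set L : ℝ := Real.log (3 * δ / κ) with hL
  have hL0 : 0 ≤ L := (theta_pos hκ0 (by linarith)).1.le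
  refine ⟨(θ * (2 * c) + C) * (L + 1) / (θ * Real.log (3 / 2)), by positivity, ?_⟩
  filter_upwards [hπ.eventually h5, hπ.eventually (ball_mem_nhds w₀ hδ), HA.ev_source hj,
    (HA.ev_chart' hj).1 (ball_mem_nhds (A.e j z) (lt_min hδ (half_pos hε)))]
    with x h6 h7 h8 h9 i α t ht ht1 hα y hy hy'
  rw [← hz'] at h7
  have hx1 : dist (A.e j x) (A.e j z) < min δ (ε / 2) := h9
  have hxδ : A.e j x ∈ ball (A.e j z) δ := hx1.trans_le (min_le_left _ _)
  have hx4 : A.e j x ∈ ball (A.e j z) (4 * δ) := ball_subset_ball (by linarith) hxδ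
  obtain ⟨g1, g2, g3, g4⟩ := h2 _ h7
  have hρ : 0 < κ * t := by positivity
  have hρ1 : κ * t ≤ κ := by nlinarith
  obtain ⟨p1, p2, p3⟩ := theta_pos (δ := δ) hρ (by linarith)
  have hlog : Real.log (3 * δ / (κ * t)) = L - Real.log t := by
    rw [hL, ← Real.log_div (by positivity) ht.ne', div_div]
  set η := Real.log (3 / 2) / Real.log (3 * δ / (κ * t)) with hη
  have hai := ha i
  have key := le_of_prop (Z := T ∩ π ⁻¹' {π x}) (f := ψ i) (α := α) (θ := θ * η)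
    (C := (θ * (2 * c) + C) * a i) (by positivity) (by positivity) (h6 i).1 (fun β hαβ hβ => by
      have h10 : ∀ y' ∈ closedBall (A.e j x) (κ * t), ψ i (s (π x) y') ≤ α := fun y' hy' => by
        have h11 : dist y' (A.e j x) ≤ κ * t := hy'
        have h12 : y' ∈ ball (A.e j z) (4 * δ) := by
          rw [mem_ball]
          linarith [dist_triangle y' (A.e j x) (A.e j z), min_le_left δ (ε / 2)]
        have h13 := g3 _ h12 _ hx4
        rw [g2 x h8 hx4 rfl] at h13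
        have h14 : Λ * dist y' (A.e j x) ≤ min (ε / 2) 1 * t / 2 := by nlinarith
        have h15 : min (ε / 2) 1 * t ≤ t := by nlinarith [min_le_right (ε / 2) 1]
        have h16 : min (ε / 2) 1 * t ≤ ε / 2 := by
          nlinarith [min_le_left (ε / 2) 1, lt_min (half_pos hε) one_pos]
        refine hα _ (g1 _ h12).1 (g1 _ h12).2.2 ?_ (g1 _ h12).2.1 (by linarith)
        have h17 := h0 (A.e j (s (π x) y')) (by
          rw [mem_ball]
          linarith [dist_triangle (A.e j (s (π x) y')) (A.e j x) (A.e j z),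
            min_le_right δ (ε / 2)])
        rwa [(A.e j).left_inv (g1 _ h12).2.1] at h17
      intro y hy
      have h11 := (h6 i).2 (min β (β - η * (β - α) + 2 * c * a i)) β (min_le_left _ _) hβ
        (fun y hy hy' => by
          rw [EReal.coe_strictMono.monotone.map_min]
          exact le_min (hβ y hy) (g4 _ hxδ _ hρ (by linarith) i α β hαβ hβ h10 y hy'.1 hy'.2 hy.2))
        y hy
      refine h11.trans (EReal.coe_le_coe_iff.2 ?_)
      have h12 := mul_le_mul_of_nonneg_left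
        (min_le_right β (β - η * (β - α) + 2 * c * a i)) h3.le
      linarith) y ⟨hy, hy'⟩
  refine key.trans (EReal.coe_le_coe_iff.2 (add_le_add_right ?_ _))
  have hlt : Real.log t ≤ 0 := Real.log_nonpos ht.le ht1
  have h10 : L - Real.log t ≤ (L + 1) * (1 - Real.log t) := by nlinarith
  rw [hη, hlog] at *
  have h11 : (θ * (2 * c) + C) * a i / (θ * (Real.log (3 / 2) / (L - Real.log t))) =
      (θ * (2 * c) + C) * a i / (θ * Real.log (3 / 2)) * (L - Real.log t) := by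
    field_simp
  rw [h11]
  refine (mul_le_mul_of_nonneg_left h10 (by positivity)).trans (le_of_eq ?_)
  ring

end main

end Crest.Agent.X261.Fh
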